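import Vale.Agent.P177.Main

namespace Vale.Agent.Results.P177.Full

open CategoryTheory

universe u

theorem result (R : Type u) [CommRing R] [IsRegularLocalRing R]
    (M N : Type u) [AddCommGroup M] [Module R M] [Module.Finite R M] [Nontrivial M]
    [AddCommGroup N] [Module R N] [Module.Finite R N] [Nontrivial N]
    (hlen : Module.length R (TensorProduct R M N) ≠ ⊤)
    (hdim : Module.supportDim R M + Module.supportDim R N = ringKrullDim R)
    (d : ℕ) (hd : ringKrullDim R = d) :
    (∀ i : ℕ, Module.length R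
      (((Tor (ModuleCat.{u} R) i).obj (ModuleCat.of R M)).obj (ModuleCat.of R N)) ≠ ⊤) ∧
    0 < ∑ i ∈ Finset.range (d + 1), (-1 : ℤ) ^ i * ((Module.length R
      (((Tor (ModuleCat.{u} R) i).obj (ModuleCat.of R M)).obj (ModuleCat.of R N))).toNat : ℤ) :=
  Vale.Agent.P177.serre_pos R M N hlen hdim d hd

end Vale.Agent.Results.P177.Full
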